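import Vale.Agent.P097U.HallA

/-! Hall's lemma (projection form) in a disc, by Blaschke factors and the maximum modulus
principle. -/

open Finset Metric MeasureTheory

namespace Vale.Agent.P097U

/-- height of `z` in the disc `ball c R` (between one half of and the distance to the circle) -/
noncomputable def ht (c : ℂ) (R : ℝ) (z : ℂ) : ℝ := (R ^ 2 - ‖z - c‖ ^ 2) / (2 * R)

theorem ht_nonneg {c z : ℂ} {R : ℝ} (hR : 0 < R) (hz : ‖z - c‖ ≤ R) : 0 ≤ ht c R z := by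
  have := norm_nonneg (z - c)
  exact div_nonneg (by nlinarith) (by positivity)

theorem ht_pos {c z : ℂ} {R : ℝ} (hz : ‖z - c‖ < R) : 0 < ht c R z := by
  have := norm_nonneg (z - c)
  exact div_pos (by nlinarith) (by linarith)

theorem ht_sub_le {c z w : ℂ} {R : ℝ} (hR : 0 < R) (hz : ‖z - c‖ ≤ R) (hw : ‖w - c‖ ≤ R) :
    ht c R z - ht c R w ≤ ‖z - w‖ := by
  have h1 : ‖w - c‖ - ‖z - c‖ ≤ ‖z - w‖ := by
    have := norm_sub_norm_le (w - c) (z - c)
    rwa [show w - c - (z - c) = -(z - w) by ring, norm_neg] at this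
  have h2 := norm_nonneg (z - c)
  have h3 := norm_nonneg (w - c)
  have h4 := norm_nonneg (z - w)
  unfold ht
  rw [← sub_div, div_le_iff₀ (by positivity)]
  nlinarith [mul_le_mul_of_nonneg_right h1 (add_nonneg h2 h3)]

/-- inverse Blaschke factor -/
noncomputable def bl (c : ℂ) (R : ℝ) (a z : ℂ) : ℂ :=
  ((R : ℂ) ^ 2 - (starRingEnd ℂ) (a - c) * (z - c)) / (R * (z - a))

theorem norm_bl {c a z : ℂ} {R : ℝ} (hR : 0 < R) (hz : ‖z - c‖ ≤ R) (ha : ‖a - c‖ ≤ R)
    (hza : z ≠ a) : ‖bl c R a z‖ = Real.exp (gr (ht c R z) (ht c R a) ‖z - a‖) := by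
  have hd : 0 < ‖z - a‖ := norm_pos_iff.2 (sub_ne_zero.2 hza)
  have h1 := ht_nonneg hR hz
  have h2 := ht_nonneg hR ha
  have hsq : ‖bl c R a z‖ ^ 2 = 1 + 4 * ht c R z * ht c R a / ‖z - a‖ ^ 2 := by
    have e : ‖(R : ℂ) ^ 2 - (starRingEnd ℂ) (a - c) * (z - c)‖ ^ 2
        = R ^ 2 * ‖z - a‖ ^ 2 + (R ^ 2 - ‖z - c‖ ^ 2) * (R ^ 2 - ‖a - c‖ ^ 2) := by
      rw [← Complex.ofReal_pow]
      simp only [Complex.sq_norm, Complex.normSq_apply, Complex.sub_re, Complex.sub_im,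
        Complex.mul_re, Complex.mul_im, Complex.ofReal_re, Complex.ofReal_im, Complex.conj_re,
        Complex.conj_im]
      ring
    unfold bl ht
    rw [norm_div, div_pow, e, norm_mul, Complex.norm_real, Real.norm_of_nonneg hR.le]
    field_simp
    ring
  have hpos : 0 < 1 + 4 * ht c R z * ht c R a / ‖z - a‖ ^ 2 := by positivity
  have : Real.exp (gr (ht c R z) (ht c R a) ‖z - a‖) ^ 2 = ‖bl c R a z‖ ^ 2 := by
    rw [hsq, ← Real.exp_nat_mul]
    unfold gr
    rw [show ((2 : ℕ) : ℝ) * (Real.log (1 + 4 * ht c R z * ht c R a / ‖z - a‖ ^ 2) / 2)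
      = Real.log (1 + 4 * ht c R z * ht c R a / ‖z - a‖ ^ 2) by push_cast; ring, Real.exp_log hpos]
  exact ((pow_left_inj₀ (Real.exp_pos _).le (norm_nonneg _) two_ne_zero).1 this).symm

/-- maximum principle for `log |f|` plus a finite Green potential -/
theorem green_mp {f : ℂ → ℂ} {c : ℂ} {R h : ℝ} (hh : 0 < h)
    (hf : DiffContOnCl ℂ f (ball c R)) (hM : ∀ z, ‖z - c‖ ≤ R → ‖f z‖ ≤ 1)
    (S : Finset ℤ) (p : ℤ → ℂ) (a : ℤ → ℝ) (ha : ∀ k ∈ S, 0 ≤ a k)
    (hp : ∀ k ∈ S, ‖p k - c‖ < R)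
    (hb : ∀ z, ‖z - c‖ ≤ R → (∀ k ∈ S, h ≤ ‖z - p k‖) → (∃ k ∈ S, ‖z - p k‖ ≤ h) →
      ‖f z‖ * Real.exp (∑ k ∈ S, a k * gr (ht c R z) (ht c R (p k)) ‖z - p k‖) ≤ 1)
    {z0 : ℂ} (hz0 : ‖z0 - c‖ < R) (hz0' : ∀ k ∈ S, h < ‖z0 - p k‖) :
    ‖f z0‖ * Real.exp (∑ k ∈ S, a k * gr (ht c R z0) (ht c R (p k)) ‖z0 - p k‖) ≤ 1 := by
  have hR : 0 < R := (norm_nonneg _).trans_lt hz0
  set U : Set ℂ := {z | ‖z - c‖ < R ∧ ∀ k ∈ S, h < ‖z - p k‖} with hU
  have hUo : IsOpen U := by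
    have : U = {z | ‖z - c‖ < R} ∩ ⋂ k ∈ S, {z | h < ‖z - p k‖} := by
      ext z; simp [hU]
    rw [this]
    exact (isOpen_lt (by fun_prop) continuous_const).inter
      (isOpen_biInter_finset fun k _ => isOpen_lt continuous_const (by fun_prop))
  have hUb : U ⊆ ball c R := fun z hz => by simpa [dist_eq_norm] using hz.1
  have hcl : ∀ z ∈ closure U, ‖z - c‖ ≤ R ∧ ∀ k ∈ S, h ≤ ‖z - p k‖ := by
    intro z hz
    refine ⟨?_, fun k hk => ?_⟩
    · exact closure_minimal (t := {z | ‖z - c‖ ≤ R}) (fun w hw => hw.1.le)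
        (isClosed_le (by fun_prop) continuous_const) hz
    · exact closure_minimal (t := {z | h ≤ ‖z - p k‖}) (fun w hw => (hw.2 k hk).le)
        (isClosed_le continuous_const (by fun_prop)) hz
  have hne : ∀ z, (∀ k ∈ S, h ≤ ‖z - p k‖) → ∀ k ∈ S, z ≠ p k := by
    intro z hz k hk e
    have := hz k hk
    rw [e, sub_self, norm_zero] at this
    linarith
  have hnorm : ∀ (n : ℤ → ℕ) z, ‖z - c‖ ≤ R → (∀ k ∈ S, h ≤ ‖z - p k‖) →
      ‖∏ k ∈ S, bl c R (p k) z ^ n k‖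
        = Real.exp (∑ k ∈ S, n k * gr (ht c R z) (ht c R (p k)) ‖z - p k‖) := by
    intro n z hz hz'
    rw [norm_prod, Real.exp_sum]
    refine prod_congr rfl fun k hk => ?_
    rw [norm_pow, norm_bl hR hz (hp k hk).le (hne z hz' k hk), Real.exp_nat_mul]
  have main : ∀ K : ℕ, ‖f z0‖ ^ K * Real.exp (∑ k ∈ S, (⌊K * a k⌋₊ : ℝ) *
      gr (ht c R z0) (ht c R (p k)) ‖z0 - p k‖) ≤ 1 := by
    intro K
    have hd : DiffContOnCl ℂ (fun z => f z ^ K * ∏ k ∈ S, bl c R (p k) z ^ ⌊K * a k⌋₊) U := by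
      have h1 : DifferentiableOn ℂ (fun z => ∏ k ∈ S, bl c R (p k) z ^ ⌊K * a k⌋₊)
          (closure U) := by
        intro z hz
        refine (DifferentiableAt.fun_finsetProd fun k hk => ?_).differentiableWithinAt
        refine DifferentiableAt.pow ?_ _
        unfold bl
        refine DifferentiableAt.div (by fun_prop) (by fun_prop) ?_
        exact mul_ne_zero (by exact_mod_cast hR.ne') (sub_ne_zero.2 (hne z (hcl z hz).2 k hk))
      have h2 := hf.mono hUb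
      exact ⟨(h2.1.pow K).mul (h1.mono subset_closure), (h2.2.pow K).mul h1.continuousOn⟩
    have hfr : ∀ z ∈ frontier U,
        ‖f z ^ K * ∏ k ∈ S, bl c R (p k) z ^ ⌊K * a k⌋₊‖ ≤ 1 := by
      intro z hz
      rw [hUo.frontier_eq] at hz
      obtain ⟨h1, h2⟩ := hcl z hz.1
      rw [norm_mul, norm_pow, hnorm _ z h1 h2]
      rcases h1.eq_or_lt with h3 | h3
      · have : ht c R z = 0 := by simp [ht, h3]
        simp only [this, gr, mul_zero, zero_mul, zero_div, add_zero, Real.log_one, sum_const_zero,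
          Real.exp_zero, mul_one]
        exact pow_le_one₀ (norm_nonneg _) (hM z h1)
      · have h4 : ∃ k ∈ S, ‖z - p k‖ ≤ h := by
          by_contra hc
          push Not at hc
          exact hz.2 ⟨h3, hc⟩
        have h5 := pow_le_one₀ (by positivity) (hb z h1 h2 h4) (n := K)
        rw [mul_pow, ← Real.exp_nat_mul, mul_sum] at h5
        refine le_trans (mul_le_mul_of_nonneg_left (Real.exp_le_exp.2 ?_) (by positivity)) h5
        refine sum_le_sum fun k hk => ?_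
        rw [← mul_assoc]
        exact mul_le_mul_of_nonneg_right (Nat.floor_le (mul_nonneg (Nat.cast_nonneg K) (ha k hk)))
          (gr_nonneg (ht_nonneg hR h1) (ht_nonneg hR (hp k hk).le))
    have := Complex.norm_le_of_forall_mem_frontier_norm_le
      ((isBounded_ball (x := c) (r := R)).subset hUb) hd hfr
      (subset_closure (show z0 ∈ U from ⟨hz0, hz0'⟩))
    rwa [norm_mul, norm_pow, hnorm _ z0 hz0.le fun k hk => (hz0' k hk).le] at this
  by_contra hc
  push Not at hc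
  obtain ⟨K, hK⟩ := pow_unbounded_of_one_lt
    (Real.exp (∑ k ∈ S, gr (ht c R z0) (ht c R (p k)) ‖z0 - p k‖)) hc
  have h1 := main K
  have h2 : K * ∑ k ∈ S, a k * gr (ht c R z0) (ht c R (p k)) ‖z0 - p k‖
      ≤ ∑ k ∈ S, (⌊K * a k⌋₊ : ℝ) * gr (ht c R z0) (ht c R (p k)) ‖z0 - p k‖
        + ∑ k ∈ S, gr (ht c R z0) (ht c R (p k)) ‖z0 - p k‖ := by
    rw [mul_sum, ← sum_add_distrib]
    refine sum_le_sum fun k hk => ?_
    have h3 := gr_nonneg (d := ‖z0 - p k‖) (ht_nonneg hR hz0.le) (ht_nonneg hR (hp k hk).le)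
    have h4 := Nat.lt_floor_add_one (K * a k)
    nlinarith
  rw [mul_pow, ← Real.exp_nat_mul] at hK
  have h3 := mul_le_mul_of_nonneg_left (Real.exp_le_exp.2 h2) (show 0 ≤ ‖f z0‖ ^ K by positivity)
  rw [Real.exp_add, ← mul_assoc] at h3
  have h4 := mul_le_mul_of_nonneg_right h1
    (Real.exp_pos (∑ k ∈ S, gr (ht c R z0) (ht c R (p k)) ‖z0 - p k‖)).le
  linarith

/-- discrete Hall lemma: `|f| ≤ exp (-L)` on a chain of discs -/
theorem hall_chain {f : ℂ → ℂ} {c : ℂ} {R h L D ω : ℝ} (hh : 0 < h) (hL : 0 ≤ L)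
    (hf : DiffContOnCl ℂ f (ball c R)) (hM : ∀ z, ‖z - c‖ ≤ R → ‖f z‖ ≤ 1)
    (S : Finset ℤ) (p : ℤ → ℂ) (hp : ∀ k ∈ S, ‖p k - c‖ < R)
    (hpp : ∀ k ∈ S, ∀ l ∈ S, h * (|(k : ℝ) - l| - 1) ≤ ‖p k - p l‖)
    (hm : ∀ z, ‖z - c‖ ≤ R → (∃ k ∈ S, ‖z - p k‖ ≤ h) → ‖f z‖ ≤ Real.exp (-L))
    {z0 : ℂ} (hz0 : ‖z0 - c‖ < R) (hD : ∀ k ∈ S, ‖z0 - p k‖ ≤ D) (hω1 : ω ≤ 1)
    (hω : ω ≤ S.card * h * (ht c R z0 / (240 * (D + 2 * ht c R z0) ^ 2))) :
    ‖f z0‖ ≤ Real.exp (-(ω * L)) := by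
  have hR : 0 < R := (norm_nonneg _).trans_lt hz0
  by_cases hc : ∃ k ∈ S, ‖z0 - p k‖ ≤ h
  · exact (hm z0 hz0.le hc).trans (Real.exp_le_exp.2 (by nlinarith))
  push Not at hc
  have hη : ∀ k ∈ S, 0 < ht c R (p k) := fun k hk => ht_pos (hp k hk)
  have h1 := green_mp hh hf hM S p (fun k => L / 480 * (h / ht c R (p k)))
    (fun k hk => by have := hη k hk; positivity) hp ?_ hz0 hc
  · have hy := ht_pos hz0
    have h2 : ω * L ≤ ∑ k ∈ S, L / 480 * (h / ht c R (p k)) *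
        gr (ht c R z0) (ht c R (p k)) ‖z0 - p k‖ := by
      have h3 : ∀ k ∈ S, L * (h * (ht c R z0 / (240 * (D + 2 * ht c R z0) ^ 2))) ≤
          L / 480 * (h / ht c R (p k)) * gr (ht c R z0) (ht c R (p k)) ‖z0 - p k‖ := by
        intro k hk
        have h4 := hη k hk
        have h5 := ht_sub_le hR (hp k hk).le hz0.le
        rw [norm_sub_rev] at h5
        have h6 := le_gr hy h4 (hh.trans (hc k hk)) (hD k hk) h5
        have h7 := mul_le_mul_of_nonneg_left h6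
          (show 0 ≤ L / 480 * (h / ht c R (p k)) by positivity)
        refine le_trans (le_of_eq ?_) h7
        field_simp
        ring
      have h4 := card_nsmul_le_sum S _ _ h3
      rw [nsmul_eq_mul] at h4
      nlinarith [mul_le_mul_of_nonneg_right hω hL]
    have h3 := mul_le_mul_of_nonneg_left (Real.exp_le_exp.2 h2) (norm_nonneg (f z0))
    rw [Real.exp_neg, ← one_div, le_div_iff₀ (Real.exp_pos _)]
    linarith
  · intro z hz hz' hz''
    have h2 := pot hh S p (fun k => ht c R (p k)) z (ht_nonneg hR hz) hη hpp hz'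
      fun k hk => ht_sub_le hR hz (hp k hk).le
    have h3 : ∑ k ∈ S, L / 480 * (h / ht c R (p k)) * gr (ht c R z) (ht c R (p k)) ‖z - p k‖
        ≤ L := by
      simp only [mul_assoc (L / 480)]
      rw [← mul_sum]
      nlinarith
    calc _ ≤ Real.exp (-L) * Real.exp L :=
          mul_le_mul (hm z hz hz'') (Real.exp_le_exp.2 h3) (by positivity) (by positivity)
      _ = 1 := by rw [← Real.exp_add]; simp

/-- **Hall's lemma** in a disc.  `π` is any 1-Lipschitz real function (distance to a point: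
circular projection; real part: linear projection).  If `|f| ≤ M` in the disc and `|f| ≤ m` on a
set `E` whose projection has outer measure at least `ℓ`, then
`|f z0| ≤ m ^ ω * M ^ (1 - ω)`, `ω = ℓ y / (240 (D + 2 y)^2)`, where `y` is the height of `z0`
and `E` lies within distance `D` from `z0`. -/
theorem hall_disc {f : ℂ → ℂ} {c : ℂ} {R M m D ℓ ω : ℝ} (hf : DiffContOnCl ℂ f (ball c R))
    (hM : ∀ z ∈ ball c R, ‖f z‖ ≤ M) (hm : 0 < m) (hmM : m ≤ M)
    (π : ℂ → ℝ) (hπ : ∀ z w, |π z - π w| ≤ ‖z - w‖) {E : Set ℂ} (hE : E ⊆ ball c R)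
    (hEm : ∀ z ∈ E, ‖f z‖ ≤ m) (hℓ : ENNReal.ofReal ℓ ≤ volume (π '' E))
    {z0 : ℂ} (hz0 : z0 ∈ ball c R) (hD : ∀ z ∈ E, ‖z0 - z‖ ≤ D) (hω1 : ω ≤ 1)
    (hω : ω ≤ ℓ * (ht c R z0 / (240 * (D + 2 * ht c R z0) ^ 2))) :
    ‖f z0‖ ≤ m ^ ω * M ^ (1 - ω) := by
  classical
  have hM0 : 0 < M := hm.trans_le hmM
  have hz0' : ‖z0 - c‖ < R := by simpa [dist_eq_norm] using hz0
  have hR : 0 < R := (norm_nonneg _).trans_lt hz0'
  have hcl : closure (ball c R) = closedBall c R := closure_ball c hR.ne'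
  have hcont : ContinuousOn f (closedBall c R) := hcl ▸ hf.2
  have hM' : ∀ z, ‖z - c‖ ≤ R → ‖f z‖ ≤ M := by
    intro z hz
    have hz' : z ∈ closure (ball c R) := by rw [hcl]; simpa [dist_eq_norm] using hz
    exact le_on_closure (f := fun z => ‖f z‖) (g := fun _ => M) hM hf.2.norm
      continuousOn_const hz'
  have key : ∀ m', m < m' → m' ≤ M → ‖f z0‖ ≤ m' ^ ω * M ^ (1 - ω) := by
    intro m' h1 h2
    have hm' : 0 < m' := hm.trans h1
    obtain ⟨δ, hδ, hu⟩ := Metric.uniformContinuousOn_iff_le.1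
      ((isCompact_closedBall c R).uniformContinuousOn_of_continuous hcont) (m' - m) (by linarith)
    set S : Finset ℤ := (Finset.Icc ⌊(π z0 - D) / δ⌋ ⌊(π z0 + D) / δ⌋).filter
      fun k => ∃ z ∈ E, ⌊π z / δ⌋ = k with hS
    have hex : ∀ k : ℤ, ∃ z, k ∈ S → z ∈ E ∧ ⌊π z / δ⌋ = k := by
      intro k
      by_cases hk : k ∈ S
      · obtain ⟨z, hz⟩ := (mem_filter.1 hk).2
        exact ⟨z, fun _ => hz⟩
      · exact ⟨0, fun h => absurd h hk⟩
    choose p hp using hex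
    have hcard : ℓ ≤ S.card * δ := by
      have hsub : π '' E ⊆ ⋃ k ∈ S, Set.Ico (k * δ) ((k + 1) * δ) := by
        rintro _ ⟨z, hz, rfl⟩
        have h3 := abs_le.1 ((hπ z0 z).trans (hD z hz))
        refine Set.mem_biUnion (x := ⌊π z / δ⌋) ?_ ⟨?_, ?_⟩
        · refine mem_coe.2 (mem_filter.2 ⟨Finset.mem_Icc.2 ⟨?_, ?_⟩, z, hz, rfl⟩)
          · exact Int.floor_le_floor (div_le_div_of_nonneg_right (by linarith [h3.2]) hδ.le)
          · exact Int.floor_le_floor (div_le_div_of_nonneg_right (by linarith [h3.1]) hδ.le)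
        · exact (le_div_iff₀ hδ).1 (Int.floor_le _)
        · exact (div_lt_iff₀ hδ).1 (Int.lt_floor_add_one _)
      have h3 : volume (π '' E) ≤ ENNReal.ofReal (S.card * δ) := by
        refine (measure_mono hsub).trans ((measure_biUnion_finset_le _ _).trans ?_)
        simp only [Real.volume_Ico, show ∀ k : ℤ, ((k : ℝ) + 1) * δ - k * δ = δ from
          fun k => by ring, sum_const, nsmul_eq_mul]
        rw [ENNReal.ofReal_mul (Nat.cast_nonneg _), ENNReal.ofReal_natCast]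
      exact (ENNReal.ofReal_le_ofReal_iff (by positivity)).1 (hℓ.trans h3)
    have hpc : ∀ k ∈ S, ‖p k - c‖ < R := fun k hk => by
      simpa [dist_eq_norm] using hE (hp k hk).1
    have hL : 0 ≤ Real.log (M / m') := Real.log_nonneg ((one_le_div hm').2 h2)
    have hn : ∀ z, ‖f z / M‖ = ‖f z‖ / M := fun z => by
      rw [norm_div, Complex.norm_real, Real.norm_of_nonneg hM0.le]
    have h3 := hall_chain (f := fun z => f z / M) (ω := ω) (D := D) hδ hL
      ⟨hf.1.div_const _, hf.2.div_const _⟩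
      (fun z hz => by rw [hn, div_le_one hM0]; exact hM' z hz) S p hpc ?_ ?_ hz0'
      (fun k hk => hD _ (hp k hk).1) hω1 ?_
    · rw [hn, div_le_iff₀ hM0] at h3
      refine h3.trans (le_of_eq ?_)
      rw [Real.rpow_def_of_pos hm', Real.rpow_def_of_pos hM0, Real.log_div hM0.ne' hm'.ne',
        ← Real.exp_add]
      nth_rewrite 2 [← Real.exp_log hM0]
      rw [← Real.exp_add]
      congr 1
      ring
    · intro k hk l hl
      refine le_trans ?_ (hπ (p k) (p l))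
      have a1 := (le_div_iff₀ hδ).1 (Int.floor_le (π (p k) / δ))
      have a2 := (div_lt_iff₀ hδ).1 (Int.lt_floor_add_one (π (p k) / δ))
      have a3 := (le_div_iff₀ hδ).1 (Int.floor_le (π (p l) / δ))
      have a4 := (div_lt_iff₀ hδ).1 (Int.lt_floor_add_one (π (p l) / δ))
      rw [(hp k hk).2] at a1 a2
      rw [(hp l hl).2] at a3 a4
      have a5 := le_abs_self (π (p k) - π (p l))
      have a6 := neg_abs_le (π (p k) - π (p l))
      rcases abs_cases ((k : ℝ) - l) with h | h <;> rw [h.1] <;> nlinarith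
    · rintro z hz ⟨k, hk, hzk⟩
      have a1 := hu z (by simpa [dist_eq_norm] using hz) (p k)
        (by simpa [dist_eq_norm] using (hpc k hk).le) (by rwa [dist_eq_norm])
      rw [dist_eq_norm] at a1
      have a2 := hEm _ (hp k hk).1
      have a3 := norm_sub_norm_le (f z) (f (p k))
      rw [hn, Real.exp_neg, Real.exp_log (by positivity), inv_div]
      exact div_le_div_of_nonneg_right (by linarith) hM0.le
    · refine hω.trans (mul_le_mul_of_nonneg_right hcard ?_)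
      have := (ht_pos hz0').le
      positivity
  rcases hmM.eq_or_lt with rfl | hlt
  · rw [← Real.rpow_add hm]
    simpa using hM z0 hz0
  have hc : ContinuousAt (fun x : ℝ => x ^ ω * M ^ (1 - ω)) m :=
    (Real.continuousAt_rpow_const m ω (Or.inl hm.ne')).mul continuousAt_const
  refine ge_of_tendsto (hc.tendsto.mono_left (nhdsWithin_le_nhds (s := Set.Ioi m))) ?_
  filter_upwards [Ioo_mem_nhdsGT hlt] with x hx
  exact key x hx.1 hx.2.le

/-- **Hall's lemma** in the upper half plane for a bounded function. -/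
theorem hall_half {f : ℂ → ℂ} {M m D ℓ ω : ℝ} (hf : DifferentiableOn ℂ f {z | 0 < z.im})
    (hM : ∀ z : ℂ, 0 < z.im → ‖f z‖ ≤ M) (hm : 0 < m) (hmM : m ≤ M)
    (π : ℂ → ℝ) (hπ : ∀ z w, |π z - π w| ≤ ‖z - w‖) {E : Set ℂ} {τ : ℝ} (hτ : 0 < τ)
    (hE : ∀ z ∈ E, τ ≤ z.im)
    (hEm : ∀ z ∈ E, ‖f z‖ ≤ m) (hℓ : ENNReal.ofReal ℓ ≤ volume (π '' E))
    {z0 : ℂ} (hz0 : 0 < z0.im) (hD0 : 0 ≤ D) (hD : ∀ z ∈ E, ‖z0 - z‖ ≤ D) (hω1 : ω ≤ 1)
    (hω : ω ≤ ℓ * (z0.im / (480 * (D + 2 * z0.im) ^ 2))) :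
    ‖f z0‖ ≤ m ^ ω * M ^ (1 - ω) := by
  set y := z0.im with hy
  rcases le_or_gt ℓ 0 with hl | hl
  · have hM0 : 0 < M := hm.trans_le hmM
    have hω0 : ω ≤ 0 := hω.trans (mul_nonpos_of_nonpos_of_nonneg hl (by positivity))
    have h1 : M ^ ω ≤ m ^ ω := Real.rpow_le_rpow_of_nonpos hm hmM hω0
    calc ‖f z0‖ ≤ M := hM z0 hz0
      _ = M ^ ω * M ^ (1 - ω) := by rw [← Real.rpow_add hM0]; simp
      _ ≤ _ := mul_le_mul_of_nonneg_right h1 (by positivity)
  set ε := min τ y / 4 with hε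
  have hε0 : 0 < ε := by positivity
  have hετ : 4 * ε ≤ τ := by have := min_le_left τ y; linarith
  have hεy : 4 * ε ≤ y := by have := min_le_right τ y; linarith
  set R := (D ^ 2 + (D + y) ^ 2) / ε + 2 * y with hR
  have hR1 : 2 * y ≤ R := le_add_of_nonneg_left (by positivity)
  have hR0 : 0 < R := by linarith
  have hR2 : D ^ 2 + (D + y) ^ 2 ≤ ε * R := by
    have : ε * ((D ^ 2 + (D + y) ^ 2) / ε) = D ^ 2 + (D + y) ^ 2 := by field_simp
    nlinarith
  set c : ℂ := ⟨z0.re, ε + R⟩ with hc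
  have hsq : ∀ z : ℂ, ‖z - c‖ ^ 2 = (z.re - z0.re) ^ 2 + (z.im - (ε + R)) ^ 2 := fun z => by
    rw [Complex.sq_norm, Complex.normSq_apply]; simp [hc]; ring
  have hcb : closedBall c R ⊆ {z : ℂ | 0 < z.im} := by
    intro z hz
    rw [mem_closedBall, dist_eq_norm] at hz
    have h1 := (abs_le.1 ((Complex.abs_im_le_norm (z - c)).trans hz)).1
    simp only [Complex.sub_im, hc] at h1
    show 0 < z.im
    linarith
  have hin : ∀ z : ℂ, ‖z0 - z‖ ≤ D → 4 * ε ≤ z.im → z ∈ ball c R := by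
    intro z h1 h2
    have a1 := abs_le.1 ((Complex.abs_re_le_norm (z0 - z)).trans h1)
    have a2 := abs_le.1 ((Complex.abs_im_le_norm (z0 - z)).trans h1)
    simp only [Complex.sub_re, Complex.sub_im] at a1 a2
    rw [mem_ball, dist_eq_norm]
    refine lt_of_pow_lt_pow_left₀ 2 hR0.le ?_
    rw [hsq]
    have a3 : (z.re - z0.re) ^ 2 ≤ D ^ 2 := sq_le_sq' (by linarith) (by linarith)
    have a4 : (z.im - ε) ^ 2 ≤ (D + y) ^ 2 := sq_le_sq' (by linarith) (by linarith)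
    nlinarith [mul_pos hε0 hR0, mul_le_mul_of_nonneg_right h2 hR0.le]
  have hht : ht c R z0 = (y - ε) * (2 * R - (y - ε)) / (2 * R) := by
    unfold ht; rw [hsq]; ring
  have h1 : ht c R z0 ≤ y := by
    rw [hht, div_le_iff₀ (by positivity)]; nlinarith
  have h2 : y / 2 ≤ ht c R z0 := by
    rw [hht, le_div_iff₀ (by positivity)]
    nlinarith [mul_le_mul (show 3 / 4 * y ≤ y - ε by linarith)
      (show 3 / 2 * R ≤ 2 * R - (y - ε) by linarith) (by positivity) (by linarith)]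
  refine hall_disc (c := c) (R := R) (D := D) (ℓ := ℓ)
    ((hf.mono ((closure_ball_subset_closedBall).trans hcb)).diffContOnCl)
    (fun z hz => hM z (hcb (ball_subset_closedBall hz))) hm hmM π hπ
    (fun z hz => hin z (hD z hz) (hετ.trans (hE z hz))) hEm hℓ
    (hin z0 (by simpa using hD0) hεy) hD hω1 (hω.trans (mul_le_mul_of_nonneg_left ?_ hl.le))
  have h0 : 0 < ht c R z0 := by linarith
  rw [div_le_div_iff₀ (by positivity) (by positivity)]
  have h3 : (D + 2 * ht c R z0) ^ 2 ≤ (D + 2 * y) ^ 2 :=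
    pow_le_pow_left₀ (by linarith) (by linarith) 2
  nlinarith [mul_le_mul h2 h3 (by positivity) h0.le]

end Vale.Agent.P097U
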