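import Mathlib

/-! Real estimates for Hall's lemma: the Green potential of a chain of point masses is bounded. -/

open Finset

namespace Vale.Agent.P097U

theorem sum_inv_sqrt (m : ℕ) : ∑ n ∈ range m, 1 / Real.sqrt ((n : ℝ) + 1) ≤ 2 * Real.sqrt m := by
  induction m with
  | zero => simp
  | succ m ih =>
    rw [sum_range_succ]
    have h1 : 0 < Real.sqrt ((m : ℝ) + 1) := Real.sqrt_pos.2 (by positivity)
    have h2 : Real.sqrt ((m : ℝ) + 1) ^ 2 = m + 1 := Real.sq_sqrt (by positivity)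
    have h3 : Real.sqrt (m : ℝ) ^ 2 = m := Real.sq_sqrt (by positivity)
    have h4 : 1 / Real.sqrt ((m : ℝ) + 1) ≤ 2 * Real.sqrt ((m : ℝ) + 1) - 2 * Real.sqrt m := by
      rw [div_le_iff₀ h1]
      nlinarith [sq_nonneg (Real.sqrt ((m : ℝ) + 1) - Real.sqrt m)]
    push_cast
    linarith

theorem log_le_sqrt {t : ℝ} (ht : 0 ≤ t) : Real.log (1 + t ^ 2) ≤ 4 * Real.sqrt t := by
  have h0 : 0 ≤ Real.sqrt t := Real.sqrt_nonneg t
  have h1 : Real.sqrt t ^ 2 = t := Real.sq_sqrt ht
  have h2 : 1 + t ^ 2 ≤ (1 + Real.sqrt t) ^ 4 := by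
    have : t ^ 2 = Real.sqrt t ^ 4 := by rw [← h1]; ring_nf; rw [h1]
    nlinarith [pow_nonneg h0 2, pow_nonneg h0 3]
  calc Real.log (1 + t ^ 2) ≤ Real.log ((1 + Real.sqrt t) ^ 4) :=
        Real.log_le_log (by positivity) h2
    _ = 4 * Real.log (1 + Real.sqrt t) := by rw [Real.log_pow]; norm_num
    _ ≤ 4 * Real.sqrt t := by
        have := Real.log_le_sub_one_of_pos (show 0 < 1 + Real.sqrt t by positivity)
        linarith

/-- the summand -/
noncomputable def ps (a : ℝ) (n : ℕ) : ℝ := Real.log (1 + (a / ((n : ℝ) + 1)) ^ 2)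

theorem ps_nonneg (a : ℝ) (n : ℕ) : 0 ≤ ps a n :=
  Real.log_nonneg (by nlinarith [sq_nonneg (a / ((n : ℝ) + 1))])

theorem sum_ps {a : ℝ} (ha : 0 < a) (T : Finset ℕ) : ∑ n ∈ T, ps a n ≤ 10 * a := by
  obtain ⟨N, hN⟩ := T.exists_nat_subset_range
  set k := ⌊a⌋₊ with hk
  have hka : (k : ℝ) ≤ a := Nat.floor_le ha.le
  have hak : a < k + 1 := Nat.lt_floor_add_one a
  have hsub : T ⊆ range k ∪ Ico k (N + k) := by
    intro n hn
    have := mem_range.1 (hN hn)
    rw [mem_union, mem_range, mem_Ico]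
    omega
  have hdis : Disjoint (range k) (Ico k (N + k)) := by
    rw [Finset.disjoint_left]
    intro n h1 h2
    rw [mem_range] at h1
    rw [mem_Ico] at h2
    omega
  have h1 : ∑ n ∈ range k, ps a n ≤ 8 * a := by
    have hs : 0 ≤ Real.sqrt a := Real.sqrt_nonneg a
    calc ∑ n ∈ range k, ps a n
        ≤ ∑ n ∈ range k, 4 * Real.sqrt a * (1 / Real.sqrt ((n : ℝ) + 1)) := by
          refine sum_le_sum fun n _ => ?_
          have := log_le_sqrt (t := a / ((n : ℝ) + 1)) (by positivity)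
          rw [Real.sqrt_div ha.le] at this
          unfold ps
          rw [mul_one_div, mul_div_assoc]
          exact this
      _ = 4 * Real.sqrt a * ∑ n ∈ range k, 1 / Real.sqrt ((n : ℝ) + 1) := by rw [mul_sum]
      _ ≤ 4 * Real.sqrt a * (2 * Real.sqrt a) := by
          refine mul_le_mul_of_nonneg_left ((sum_inv_sqrt k).trans ?_) (by positivity)
          have := Real.sqrt_le_sqrt hka
          linarith
      _ = 8 * a := by
          have := Real.mul_self_sqrt ha.le
          nlinarith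
  have h2 : ∑ n ∈ Ico k (N + k), ps a n ≤ 2 * a := by
    have h3 : ∑ i ∈ Ioo k (N + k + 1), ((i : ℝ) ^ 2)⁻¹ ≤ 2 / (k + 1) := sum_Ioo_inv_sq_le k _
    have h4 : ∑ n ∈ Ico k (N + k), (((n : ℝ) + 1) ^ 2)⁻¹
        = ∑ i ∈ Ioo k (N + k + 1), ((i : ℝ) ^ 2)⁻¹ := by
      rw [← Finset.Ico_add_one_left_eq_Ioo, ← Finset.sum_Ico_add' (fun i : ℕ => ((i : ℝ) ^ 2)⁻¹) k (N + k) 1]
      simp
    calc ∑ n ∈ Ico k (N + k), ps a n ≤ ∑ n ∈ Ico k (N + k), a ^ 2 * (((n : ℝ) + 1) ^ 2)⁻¹ := by
          refine sum_le_sum fun n _ => ?_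
          have := Real.log_le_sub_one_of_pos
            (show 0 < 1 + (a / ((n : ℝ) + 1)) ^ 2 by positivity)
          unfold ps
          rw [div_pow, div_eq_mul_inv] at this
          rw [div_pow, div_eq_mul_inv]
          linarith
      _ = a ^ 2 * ∑ n ∈ Ico k (N + k), (((n : ℝ) + 1) ^ 2)⁻¹ := by rw [mul_sum]
      _ ≤ a ^ 2 * (2 / (k + 1)) := by
          rw [h4]; exact mul_le_mul_of_nonneg_left h3 (by positivity)
      _ ≤ 2 * a := by
          rw [← mul_div_assoc, div_le_iff₀ (by positivity)]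
          nlinarith
  calc ∑ n ∈ T, ps a n ≤ ∑ n ∈ range k ∪ Ico k (N + k), ps a n :=
        sum_le_sum_of_subset_of_nonneg hsub fun n _ _ => ps_nonneg a n
    _ = ∑ n ∈ range k, ps a n + ∑ n ∈ Ico k (N + k), ps a n := sum_union hdis
    _ ≤ 10 * a := by linarith

theorem sum_ps_int {a : ℝ} (ha : 0 < a) (S : Finset ℤ) (k0 : ℤ) :
    ∑ k ∈ S, ps a (k - k0).natAbs ≤ 20 * a := by
  rw [← sum_filter_add_sum_filter_not S (fun k => k0 ≤ k)]
  have h1 : ∑ k ∈ S.filter (fun k => k0 ≤ k), ps a (k - k0).natAbs ≤ 10 * a := by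
    rw [← sum_image (f := ps a) (g := fun k : ℤ => (k - k0).natAbs)]
    · exact sum_ps ha _
    · intro x hx y hy hxy
      have h1 := (mem_filter.1 hx).2
      have h2 := (mem_filter.1 hy).2
      simp only at hxy
      omega
  have h2 : ∑ k ∈ S.filter (fun k => ¬ k0 ≤ k), ps a (k - k0).natAbs ≤ 10 * a := by
    rw [← sum_image (f := ps a) (g := fun k : ℤ => (k - k0).natAbs)]
    · exact sum_ps ha _
    · intro x hx y hy hxy
      have h1 := (mem_filter.1 hx).2
      have h2 := (mem_filter.1 hy).2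
      simp only at hxy
      omega
  linarith

/-- Green function in terms of the two heights and the distance -/
noncomputable def gr (y η d : ℝ) : ℝ := Real.log (1 + 4 * y * η / d ^ 2) / 2

theorem gr_nonneg {y η d : ℝ} (hy : 0 ≤ y) (hη : 0 ≤ η) : 0 ≤ gr y η d := by
  have : 0 ≤ 4 * y * η / d ^ 2 := by positivity
  exact div_nonneg (Real.log_nonneg (by linarith)) (by norm_num)

theorem gr_le {y η d : ℝ} (hy : 0 < y) (hη : 0 < η) (hd : 0 < d) (h : y - η ≤ d) :
    y * gr y η d ≤ 6 * η * Real.log (1 + (y / d) ^ 2) := by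
  set x := (y / d) ^ 2 with hx
  have hx0 : 0 < x := by positivity
  have hl : 0 ≤ Real.log (1 + x) := Real.log_nonneg (by linarith)
  have e : 4 * y * η / d ^ 2 = (4 * η / y) * x := by rw [hx]; field_simp
  unfold gr
  rw [e]
  by_cases hc : y ≤ 4 * η
  · have h1 : 1 ≤ 4 * η / y := by rwa [le_div_iff₀ hy, one_mul]
    have h2 := one_add_mul_self_le_rpow_one_add (s := x) (by linarith) h1
    have h3 : Real.log (1 + 4 * η / y * x) ≤ 4 * η / y * Real.log (1 + x) := by
      rw [← Real.log_rpow (by linarith)]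
      exact Real.log_le_log (by positivity) h2
    have h4 : y * (4 * η / y * Real.log (1 + x)) = 4 * η * Real.log (1 + x) := by field_simp
    have h5 := mul_le_mul_of_nonneg_left h3 hy.le
    nlinarith [mul_nonneg hη.le hl]
  · push Not at hc
    have h1 : x ≤ 2 := by
      rw [hx, div_pow, div_le_iff₀ (by positivity)]
      nlinarith
    have h2 : Real.log (1 + 4 * η / y * x) ≤ 4 * η / y * x := by
      have := Real.log_le_sub_one_of_pos (show 0 < 1 + 4 * η / y * x by positivity)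
      linarith
    have h3 : x ≤ 3 * Real.log (1 + x) := by
      have := Real.one_sub_inv_le_log_of_pos (show 0 < 1 + x by linarith)
      have h4 : x / 3 ≤ 1 - (1 + x)⁻¹ := by
        have : 1 - (1 + x)⁻¹ = x / (1 + x) := by field_simp; ring
        rw [this]
        exact div_le_div_of_nonneg_left hx0.le (by linarith) (by linarith)
      linarith
    have h4 : y * (4 * η / y * x) = 4 * η * x := by field_simp
    have h5 := mul_le_mul_of_nonneg_left h2 hy.le
    nlinarith [mul_le_mul_of_nonneg_left h3 hη.le]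

theorem le_gr {y η d D : ℝ} (hy : 0 < y) (hη : 0 < η) (hd : 0 < d) (hD : d ≤ D)
    (h : η - y ≤ d) : η * (2 * y / (D + 2 * y) ^ 2) ≤ gr y η d := by
  set x := 4 * y * η / d ^ 2 with hx
  have hx0 : 0 < x := by positivity
  have h1 := Real.one_sub_inv_le_log_of_pos (show 0 < 1 + x by linarith)
  have h2 : 1 - (1 + x)⁻¹ = 4 * y * η / (d ^ 2 + 4 * y * η) := by
    rw [hx]; field_simp; ring
  have h3 : 4 * y * η / (D + 2 * y) ^ 2 ≤ 4 * y * η / (d ^ 2 + 4 * y * η) := by
    refine div_le_div_of_nonneg_left (by positivity) (by positivity) ?_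
    nlinarith
  have h4 : η * (2 * y / (D + 2 * y) ^ 2) = 4 * y * η / (D + 2 * y) ^ 2 / 2 := by ring
  unfold gr
  rw [h4]
  linarith

/-- the potential of a chain is at most `480` off the discs of radius `h` -/
theorem pot {h : ℝ} (hh : 0 < h) (S : Finset ℤ) (p : ℤ → ℂ) (η : ℤ → ℝ) (z : ℂ) {y : ℝ}
    (hy : 0 ≤ y) (hη : ∀ k ∈ S, 0 < η k)
    (hp : ∀ k ∈ S, ∀ l ∈ S, h * (|(k : ℝ) - l| - 1) ≤ ‖p k - p l‖)
    (hz : ∀ k ∈ S, h ≤ ‖z - p k‖) (hyη : ∀ k ∈ S, y - η k ≤ ‖z - p k‖) :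
    ∑ k ∈ S, h / η k * gr y (η k) ‖z - p k‖ ≤ 480 := by
  rcases hy.eq_or_lt with rfl | hy
  · simp [gr]
  rcases S.eq_empty_or_nonempty with rfl | hS
  · simp
  obtain ⟨k0, hk0, hmin⟩ := S.exists_min_image (fun k => ‖z - p k‖) hS
  have ha : 0 < 4 * y / h := by positivity
  have key : ∀ k ∈ S, h / η k * gr y (η k) ‖z - p k‖
      ≤ 6 * h / y * ps (4 * y / h) (k - k0).natAbs := by
    intro k hk
    have hd : 0 < ‖z - p k‖ := hh.trans_le (hz k hk)
    have h1 := gr_le hy (hη k hk) hd (hyη k hk)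
    have h2 : h * (((k - k0).natAbs : ℝ) + 1) ≤ 4 * ‖z - p k‖ := by
      have e : ((k - k0).natAbs : ℝ) = |(k : ℝ) - k0| := by
        rw [Nat.cast_natAbs]; push_cast; rfl
      have h3 := hp k hk k0 hk0
      have h4 : ‖p k - p k0‖ ≤ ‖z - p k‖ + ‖z - p k0‖ := by
        have : p k - p k0 = (z - p k0) - (z - p k) := by ring
        rw [this]
        exact (norm_sub_le _ _).trans (by rw [add_comm])
      have h5 : ‖z - p k0‖ ≤ ‖z - p k‖ := hmin k hk
      have h6 := hz k hk
      rw [e]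
      linarith
    have h3 : y / ‖z - p k‖ ≤ 4 * y / h / (((k - k0).natAbs : ℝ) + 1) := by
      rw [div_div, div_le_div_iff₀ hd (by positivity)]
      nlinarith
    have h4 : Real.log (1 + (y / ‖z - p k‖) ^ 2) ≤ ps (4 * y / h) (k - k0).natAbs := by
      refine Real.log_le_log (by positivity) ?_
      have := pow_le_pow_left₀ (by positivity) h3 2
      linarith
    have h5 : y * gr y (η k) ‖z - p k‖ ≤ 6 * η k * ps (4 * y / h) (k - k0).natAbs :=
      h1.trans (mul_le_mul_of_nonneg_left h4 (by have := hη k hk; positivity))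
    have h6 := hη k hk
    have h7 := mul_le_mul_of_nonneg_left h5 (show 0 ≤ h / (η k * y) by positivity)
    calc h / η k * gr y (η k) ‖z - p k‖ = h / (η k * y) * (y * gr y (η k) ‖z - p k‖) := by
          field_simp
      _ ≤ _ := h7
      _ = 6 * h / y * ps (4 * y / h) (k - k0).natAbs := by field_simp
  calc _ ≤ ∑ k ∈ S, 6 * h / y * ps (4 * y / h) (k - k0).natAbs := sum_le_sum key
    _ = 6 * h / y * ∑ k ∈ S, ps (4 * y / h) (k - k0).natAbs := by rw [mul_sum]
    _ ≤ 6 * h / y * (20 * (4 * y / h)) :=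
        mul_le_mul_of_nonneg_left (sum_ps_int ha S k0) (by positivity)
    _ = 480 := by field_simp; norm_num

end Vale.Agent.P097U
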