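import Vale.Agent.P167.BVP.Dir

/-!
# P097U: Poisson majorants, two constants, three circles, three horizontal lines
-/

set_option linter.all false

noncomputable section

namespace Vale.Agent.P097U.PJ

open Set Metric Filter Topology Complex Real InnerProductSpace MeasureTheory
open Vale.Agent.P167.BVP

variable {E : Type*} [NormedAddCommGroup E] [NormedSpace ℂ E]

theorem pj0 {f : ℂ → E} {g : ℂ → ℝ} {R : ℝ}
    (hf : DiffContOnCl ℂ f (ball 0 R)) (hg : ContinuousOn g (sphere 0 R))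
    (hfg : ∀ z ∈ sphere (0 : ℂ) R, ‖f z‖ ≤ Real.exp (g z)) {w : ℂ} (hw : w ∈ ball (0 : ℂ) R) :
    ‖f w‖ ≤ Real.exp (circleAverage (poissonKernel 0 w • g) 0 R) := by
  have hR : 0 < R := pos_of_mem_ball hw
  obtain ⟨v, hvc, hvh, hvg⟩ := exists_dirichlet hR hg
  obtain ⟨H, hH, hre⟩ := HarmonicOnNhd.exists_analyticOnNhd_ball_re_eq hvh
  have hcl : closure (ball (0 : ℂ) R) = closedBall 0 R := closure_ball 0 hR.ne'
  have hP : circleAverage (poissonKernel 0 w • g) 0 R = v w := by
    rw [← HarmonicContOnCl.circleAverage_poissonKernel_smul ⟨hvh, by rwa [hcl]⟩ hw]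
    refine circleAverage_congr_sphere fun z hz => ?_
    rw [abs_of_pos hR] at hz
    simp [hvg z hz]
  rw [hP]
  let F : ℂ → E := fun z => Complex.exp (-H z) • f z
  let U : ℂ → ℝ := fun z => Real.exp (-v z) * ‖f z‖
  have hU : ContinuousOn U (closedBall 0 R) :=
    (Real.continuous_exp.comp_continuousOn hvc.neg).mul (hcl ▸ hf.continuousOn).norm
  have hFU : ∀ z ∈ ball (0 : ℂ) R, ‖F z‖ = U z := fun z hz => by
    have e : (H z).re = v z := hre hz
    simp only [F, U, norm_smul, Complex.norm_exp, Complex.neg_re, e]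
  have hS : ∀ z ∈ sphere (0 : ℂ) R, U z ≤ 1 := fun z hz => by
    have := hfg z hz
    rw [← hvg z hz] at this
    calc U z ≤ Real.exp (-v z) * Real.exp (v z) := by simp only [U]; gcongr
      _ = 1 := by rw [← Real.exp_add]; simp
  obtain ⟨z₀, hz₀, hm⟩ := (isCompact_closedBall (0 : ℂ) R).exists_isMaxOn
    ⟨0, mem_closedBall_self hR.le⟩ hU
  have h1 : U z₀ ≤ 1 := by
    by_cases hb : z₀ ∈ ball (0 : ℂ) R
    · have dF : DifferentiableOn ℂ F (ball 0 R) :=
        (hH.differentiableOn.neg.cexp).smul hf.differentiableOn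
      have k := Complex.norm_eqOn_of_isPreconnected_of_isMaxOn (convex_ball (0 : ℂ) R).isPreconnected
        isOpen_ball dF hb (fun z hz => by
          show ‖F z‖ ≤ ‖F z₀‖
          rw [hFU z hz, hFU z₀ hb]
          exact hm (ball_subset_closedBall hz))
      have k2 : EqOn U (fun _ => U z₀) (closedBall 0 R) :=
        Set.EqOn.of_subset_closure (s := ball 0 R) (fun z hz => by
          have := k hz
          simp only [Function.comp, Function.const] at this
          rw [← hFU z hz, this, hFU z₀ hb]) hU continuousOn_const ball_subset_closedBall hcl.ge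
      have hs : (R : ℂ) ∈ sphere (0 : ℂ) R := by simp [abs_of_pos hR]
      have := k2 (sphere_subset_closedBall hs)
      simp only at this
      rw [← this]
      exact hS _ hs
    · refine hS z₀ ?_
      rw [mem_closedBall_zero_iff] at hz₀
      rw [mem_ball_zero_iff] at hb
      rw [mem_sphere_zero_iff_norm]
      linarith
  have h2 : U w ≤ 1 := (hm (ball_subset_closedBall hw)).trans h1
  calc ‖f w‖ = Real.exp (v w) * U w := by
        simp only [U]; rw [← mul_assoc, ← Real.exp_add]; simp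
    _ ≤ Real.exp (v w) * 1 := by gcongr
    _ = _ := mul_one _

/-- Poisson majorant -/
theorem pj {f : ℂ → E} {g : ℂ → ℝ} {c : ℂ} {R : ℝ}
    (hf : DiffContOnCl ℂ f (ball c R)) (hg : ContinuousOn g (sphere c R))
    (hfg : ∀ z ∈ sphere c R, ‖f z‖ ≤ Real.exp (g z)) {w : ℂ} (hw : w ∈ ball c R) :
    ‖f w‖ ≤ Real.exp (circleAverage (poissonKernel c w • g) c R) := by
  have m1 : ∀ z ∈ sphere (0 : ℂ) R, z + c ∈ sphere c R := fun z hz => by simpa using hz
  have h1 : DiffContOnCl ℂ (fun z => f (z + c)) (ball 0 R) :=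
    hf.comp (DifferentiableOn.diffContOnCl (by fun_prop)) (fun z hz => by simpa using hz)
  have h2 : w - c ∈ ball (0 : ℂ) R := by simpa using mem_ball_iff_norm.1 hw
  have k := pj0 (g := fun z => g (z + c)) h1
    (hg.comp (by fun_prop : ContinuousOn (fun z : ℂ => z + c) _) m1) (fun z hz => hfg _ (m1 z hz)) h2
  rw [sub_add_cancel] at k
  refine k.trans (le_of_eq ?_)
  rw [← circleAverage_map_add_const (c := c)]
  congr 2
  ext z
  simp [poissonKernel_def]

theorem ker_cont {c w : ℂ} {R : ℝ} (hw : w ∈ ball c R) :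
    ContinuousOn (poissonKernel c w) (sphere c R) := by
  rw [poissonKernel_eq_re_herglotzRieszKernel]
  have := continuousOn_herglotzRieszKernel_sphere hw
  rw [abs_of_pos (pos_of_mem_ball hw)] at this
  exact Complex.continuous_re.comp_continuousOn this

theorem ker_one {c w : ℂ} {R : ℝ} (hw : w ∈ ball c R) :
    circleAverage (poissonKernel c w) c R = 1 := by
  rw [← HarmonicOnNhd.circleAverage_poissonKernel_smul (f := fun _ : ℂ => (1 : ℝ))
    (c := c) (R := R) (fun z _ => harmonicAt_const 1 z) hw]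
  congr 1
  ext z
  simp

theorem ker_ge {c w z : ℂ} {R ρ : ℝ} (hρ : ρ < R) (hw : ‖w - c‖ ≤ ρ) (hz : z ∈ sphere c R) :
    (R - ρ) / (R + ρ) ≤ poissonKernel c w z := by
  have n0 := norm_nonneg (w - c)
  have hb : w ∈ ball c R := mem_ball_iff_norm.2 (by linarith)
  rw [poissonKernel_eq_re_herglotzRieszKernel]
  refine le_trans ?_ (le_re_herglotzRieszKernel hz hb)
  rw [div_le_div_iff₀ (by linarith) (by linarith)]
  nlinarith

/-- two constants: a small value on a set of angles of measure `a` -/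
theorem two_const {f : ℂ → E} {c w : ℂ} {R ρ M ε a : ℝ}
    (hf : DiffContOnCl ℂ f (ball c R)) (hρ : ρ < R) (hw : ‖w - c‖ ≤ ρ) (hε : 0 < ε) (hM : ε ≤ M)
    (hb : ∀ z ∈ sphere c R, ‖f z‖ ≤ M)
    (ha : a ≤ volume.real {t | t ∈ Ioc 0 (2 * π) ∧ ‖f (circleMap c R t)‖ ≤ ε}) :
    ‖f w‖ ≤ M * (ε / M) ^ ((R - ρ) / (R + ρ) * (a / (2 * π))) := by
  have n0 := norm_nonneg (w - c)
  have hR : 0 < R := by linarith
  have hwb : w ∈ ball c R := mem_ball_iff_norm.2 (by linarith)
  have M0 : 0 < M := by linarith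
  have fc : ContinuousOn f (sphere c R) :=
    hf.continuousOn.mono (by rw [closure_ball c hR.ne']; exact sphere_subset_closedBall)
  let g : ℂ → ℝ := fun z => Real.log (max ‖f z‖ ε)
  have mp : ∀ z, 0 < max ‖f z‖ ε := fun z => lt_max_of_lt_right hε
  have gc : ContinuousOn g (sphere c R) :=
    (fc.norm.sup continuousOn_const).log fun z _ => (mp z).ne'
  have k := pj hf gc (fun z _ => by simp only [g]; rw [Real.exp_log (mp z)]; exact le_max_left _ _) hwb
  refine k.trans ?_
  set κ := (R - ρ) / (R + ρ) with hκ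
  have κ0 : 0 < κ := div_pos (by linarith) (by linarith)
  rw [Real.rpow_def_of_pos (div_pos hε M0)]
  conv_rhs => rw [← Real.exp_log M0, ← Real.exp_add, Real.exp_log M0]
  refine Real.exp_le_exp.2 ?_
  have kc := ker_cont hwb
  have aR : |R| = R := abs_of_pos hR
  let D : ℂ → ℝ := fun z => poissonKernel c w z * (Real.log M - g z)
  have Dc : ContinuousOn D (sphere c R) := kc.mul (continuousOn_const.sub gc)
  have e : poissonKernel c w • g = Real.log M • poissonKernel c w - D := by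
    ext z
    simp only [D, Pi.smul_apply', Pi.sub_apply, Pi.smul_apply, smul_eq_mul]
    ring
  rw [e, circleAverage_sub ((kc.circleIntegrable hR.le).const_smul) (Dc.circleIntegrable hR.le),
    circleAverage_smul, ker_one hwb, smul_eq_mul, mul_one]
  set L := Real.log M - Real.log ε with hL
  have L0 : 0 ≤ L := sub_nonneg.2 (Real.log_le_log hε hM)
  rw [Real.log_div hε.ne' M0.ne']
  suffices h : L * (κ * (a / (2 * π))) ≤ circleAverage D c R by linarith
  set A := {t | t ∈ Ioc 0 (2 * π) ∧ ‖f (circleMap c R t)‖ ≤ ε} with hA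
  have cm : ∀ t, circleMap c R t ∈ sphere c R := fun t => circleMap_mem_sphere c hR.le t
  have fc2 : Continuous fun t => ‖f (circleMap c R t)‖ :=
    (fc.comp_continuous (continuous_circleMap c R) cm).norm
  have Am : MeasurableSet A :=
    measurableSet_Ioc.inter (isClosed_le fc2 continuous_const).measurableSet
  have As : A ⊆ Ioc 0 (2 * π) := fun t ht => ht.1
  have Dc2 : Continuous fun t => D (circleMap c R t) :=
    Dc.comp_continuous (continuous_circleMap c R) cm
  have D0 : ∀ t, 0 ≤ D (circleMap c R t) := fun t =>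
    mul_nonneg (κ0.le.trans (ker_ge hρ hw (cm t)))
      (sub_nonneg.2 (Real.log_le_log (mp _) (max_le (hb _ (cm t)) hM)))
  have i1 : IntegrableOn (fun t => D (circleMap c R t)) (Ioc 0 (2 * π)) :=
    Dc2.integrableOn_Ioc
  have Af : volume A ≠ ⊤ := ((measure_mono As).trans_lt measure_Ioc_lt_top).ne
  have h1 : κ * L * volume.real A ≤ ∫ t in A, D (circleMap c R t) := by
    have := setIntegral_ge_of_const_le_real (μ := volume) (c := κ * L) Am Af
      (fun t ht => by
        show κ * L ≤ poissonKernel c w _ * (Real.log M - Real.log (max _ ε))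
        rw [max_eq_right ht.2]
        exact mul_le_mul_of_nonneg_right (ker_ge hρ hw (cm t)) L0) (i1.mono_set As)
    exact this
  have h2 : ∫ t in A, D (circleMap c R t) ≤ ∫ t in Ioc 0 (2 * π), D (circleMap c R t) :=
    setIntegral_mono_set i1 (Eventually.of_forall D0) As.eventuallyLE
  rw [circleAverage_def, intervalIntegral.integral_of_le (by positivity), smul_eq_mul]
  have h3 : κ * L * a ≤ κ * L * volume.real A := mul_le_mul_of_nonneg_left ha (by positivity)
  calc L * (κ * (a / (2 * π))) = (2 * π)⁻¹ * (κ * L * a) := by ring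
    _ ≤ _ := by gcongr; linarith

/-- three horizontal lines -/
theorem lines3 {f : ℂ → E} {z : ℂ} {A B l u K : ℝ} (hul : l < u) (hz : z.im ∈ Icc l u)
    (hd : DiffContOnCl ℂ f (Complex.im ⁻¹' Ioo l u)) (hK : ∀ y : ℂ, y.im ∈ Icc l u → ‖f y‖ ≤ K)
    (ha : ∀ y : ℂ, y.im = l → ‖f y‖ ≤ A) (hb : ∀ y : ℂ, y.im = u → ‖f y‖ ≤ B) :
    ‖f z‖ ≤ A ^ (1 - (z.im - l) / (u - l)) * B ^ ((z.im - l) / (u - l)) := by
  have e : ∀ y : ℂ, (I * y).im = y.re := fun y => by simp
  have k := Complex.HadamardThreeLines.norm_le_interp_of_mem_verticalClosedStrip'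
    (f := fun y => f (I * y)) (z := -I * z) (a := A) (b := B) hul
    (by simpa [Complex.HadamardThreeLines.verticalClosedStrip] using hz)
    (hd.comp (DifferentiableOn.diffContOnCl (by fun_prop)) (fun y hy => by
      simpa [Complex.HadamardThreeLines.verticalStrip] using hy))
    ⟨K, by
      rintro _ ⟨y, hy, rfl⟩
      exact hK _ (by rw [e]; exact hy)⟩
    (fun y hy => ha _ (by rw [e]; exact hy)) (fun y hy => hb _ (by rw [e]; exact hy))
  have e2 : I * (-I * z) = z := by rw [← mul_assoc]; simp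
  have e3 : (-I * z).re = z.im := by simp
  simpa only [e2, e3] using k

/-- a continuous function of period one is bounded on a closed horizontal strip -/
theorem per_bdd {f : ℂ → E} {l u : ℝ} (hc : ContinuousOn f (Complex.im ⁻¹' Icc l u))
    (hp : ∀ y : ℂ, y.im ∈ Icc l u → ‖f (y + 1)‖ = ‖f y‖) :
    ∃ K, ∀ y : ℂ, y.im ∈ Icc l u → ‖f y‖ ≤ K := by
  have hK : IsCompact (Icc (0 : ℝ) 1 ×ℂ Icc l u) := isCompact_Icc.reProdIm isCompact_Icc
  obtain ⟨K, hK⟩ := hK.exists_bound_of_continuousOn (hc.mono fun y hy => hy.2)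
  refine ⟨K, fun y hy => ?_⟩
  have hn : ∀ n : ℤ, ‖f (y + n)‖ = ‖f y‖ := fun n => by
    induction n using Int.induction_on with
    | zero => simp
    | succ n ih =>
      rw [← ih, ← hp (y + ((n : ℤ) : ℂ)) (by simpa using hy)]
      congr 2
      push_cast
      ring
    | pred n ih =>
      rw [← ih, ← hp (y + ((-(n : ℤ) - 1 : ℤ) : ℂ)) (by simpa using hy)]
      congr 2
      push_cast
      ring
  rw [← hn (-⌊y.re⌋)]
  refine hK _ ⟨?_, by simpa using hy⟩
  have h1 := Int.floor_le y.re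
  have h2 := Int.lt_floor_add_one y.re
  show (y + ((-⌊y.re⌋ : ℤ) : ℂ)).re ∈ Icc (0 : ℝ) 1
  simp only [Complex.add_re, Complex.intCast_re, Int.cast_neg, Complex.neg_re]
  constructor <;> linarith

/-- three horizontal lines, periodic modulus -/
theorem lines3_per {f : ℂ → E} {z : ℂ} {A B l u : ℝ} (hul : l < u) (hz : z.im ∈ Icc l u)
    (hd : DiffContOnCl ℂ f (Complex.im ⁻¹' Ioo l u))
    (hp : ∀ y : ℂ, y.im ∈ Icc l u → ‖f (y + 1)‖ = ‖f y‖)
    (ha : ∀ y : ℂ, y.im = l → ‖f y‖ ≤ A) (hb : ∀ y : ℂ, y.im = u → ‖f y‖ ≤ B) :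
    ‖f z‖ ≤ A ^ (1 - (z.im - l) / (u - l)) * B ^ ((z.im - l) / (u - l)) := by
  have hc := hd.continuousOn
  rw [Complex.closure_preimage_im, closure_Ioo hul.ne] at hc
  obtain ⟨K, hK⟩ := per_bdd hc hp
  exact lines3 hul hz hd hK ha hb

/-- three circles -/
theorem circles3 {f : ℂ → E} {c z : ℂ} {A B r₁ r₂ : ℝ} (h0 : 0 < r₁) (h12 : r₁ < r₂)
    (hz : ‖z - c‖ ∈ Icc r₁ r₂) (hd : DifferentiableOn ℂ f {y | ‖y - c‖ ∈ Ioo r₁ r₂})
    (hc : ContinuousOn f {y | ‖y - c‖ ∈ Icc r₁ r₂})
    (ha : ∀ y : ℂ, ‖y - c‖ = r₁ → ‖f y‖ ≤ A) (hb : ∀ y : ℂ, ‖y - c‖ = r₂ → ‖f y‖ ≤ B) :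
    ‖f z‖ ≤ A ^ (1 - Real.log (‖z - c‖ / r₁) / Real.log (r₂ / r₁)) *
      B ^ (Real.log (‖z - c‖ / r₁) / Real.log (r₂ / r₁)) := by
  have h2 : 0 < r₂ := by linarith
  have z0 : 0 < ‖z - c‖ := h0.trans_le hz.1
  have hl : Real.log r₁ < Real.log r₂ := Real.log_lt_log h0 h12
  have nn : ∀ y : ℂ, ‖c + Complex.exp y - c‖ = Real.exp y.re := fun y => by
    rw [add_sub_cancel_left, Complex.norm_exp]
  have cK : IsCompact {y : ℂ | ‖y - c‖ ∈ Icc r₁ r₂} :=
    (isCompact_closedBall c r₂).of_isClosed_subset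
      (isClosed_Icc.preimage (by fun_prop : Continuous fun y : ℂ => ‖y - c‖))
      fun y hy => mem_closedBall_iff_norm.2 hy.2
  obtain ⟨K, hK⟩ := cK.exists_bound_of_continuousOn hc
  have mI : ∀ y : ℂ, y.re ∈ Icc (Real.log r₁) (Real.log r₂) →
      ‖c + Complex.exp y - c‖ ∈ Icc r₁ r₂ := fun y hy => by
    rw [nn]
    exact ⟨(Real.log_le_iff_le_exp h0).1 hy.1, (Real.le_log_iff_exp_le h2).1 hy.2⟩
  have k := Complex.HadamardThreeLines.norm_le_interp_of_mem_verticalClosedStrip'
    (f := fun y => f (c + Complex.exp y)) (z := Complex.log (z - c)) (a := A) (b := B) hl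
    (by
      show (Complex.log (z - c)).re ∈ Icc _ _
      rw [Complex.log_re]
      exact ⟨Real.log_le_log h0 hz.1, Real.log_le_log z0 hz.2⟩)
    ⟨hd.comp (by fun_prop) (fun y hy => by
        show ‖c + Complex.exp y - c‖ ∈ Ioo r₁ r₂
        rw [nn]
        exact ⟨(Real.log_lt_iff_lt_exp h0).1 hy.1, (Real.lt_log_iff_exp_lt h2).1 hy.2⟩),
      hc.comp (by fun_prop) (fun y hy => by
        rw [Complex.HadamardThreeLines.verticalStrip, Complex.closure_preimage_re,
          closure_Ioo hl.ne] at hy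
        exact mI y hy)⟩
    ⟨K, by
      rintro _ ⟨y, hy, rfl⟩
      exact hK _ (mI y hy)⟩
    (fun y hy => ha _ (by rw [nn, show y.re = Real.log r₁ from hy, Real.exp_log h0]))
    (fun y hy => hb _ (by rw [nn, show y.re = Real.log r₂ from hy, Real.exp_log h2]))
  rw [Complex.exp_log (norm_pos_iff.1 z0), add_sub_cancel, Complex.log_re] at k
  rwa [Real.log_div z0.ne' h0.ne', Real.log_div h2.ne' h0.ne']

end Vale.Agent.P097U.PJ
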